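import Vale.Agent.P251.S.ExactCouple

/-!
# P251, part B: the element `β₁` from the vanishing line (abstract form)

`C` is the exact couple of the integral tower `X_s` (`D^s_n = π_n X_s`, `E^s_n = π_n (MU ⊗ X_s)`)
and `Cp` the one of the tower `X_s ⊗ S/p`.  Given `τ ∈ E^1_{n+1}` (in the application `n = 38` and
`τ` is the class of `t₁^p`), a cocycle modulo `p`, the boundary `k τ ∈ D^2_n` is divisible by `p`
as soon as the obstruction groups for `S/p` vanish: `k τ = p x`.  Then `p j(x) = d τ`, that is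
`j(x) = (1/p) d(t₁^p)` as `E^2_n` has no `p`-torsion.  No localization or completion is needed.
-/

universe u v

namespace Vale.Agent.P251.B

open Vale.Agent.P251.S

/-- A reduction map between couples, compatible with `j` and `k`. -/
structure Red (C Cp : Couple.{u, v}) where
  /-- the map on `D` -/
  fD : ∀ s n, C.D s n →+ Cp.D s n
  /-- the map on `E` -/
  fE : ∀ s n, C.E s n →+ Cp.E s n
  i_comm : ∀ s n y, Cp.i s n (fD (s + 1) n y) = fD s n (C.i s n y)
  j_comm : ∀ s n y, Cp.j s n (fD s n y) = fE s n (C.j s n y)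
  k_comm : ∀ s n m h z, Cp.k s n m h (fE s n z) = fD (s + 1) m (C.k s n m h z)

/-- Existence of `β₁` with control of its image in the `E₁`-term. -/
theorem exists_beta {C Cp : Couple.{u, v}} (ρ : Red C Cp) (p : ℤ) {s : ℕ} {n m : ℤ}
    (h : n = m + 1) (τ : C.E s n)
    (hτ : Cp.IsCocycle (ρ.fE s n τ))
    (hv : ∀ s' ≥ s + 1, Cp.Van s' m) (r : ℕ) (hD : ∀ y : Cp.D (s + 1 + r) m, y = 0)
    (hρ : ∀ y : C.D (s + 1) m, ρ.fD (s + 1) m y = 0 → ∃ w, p • w = y) :
    ∃ x : C.D (s + 1) m, p • x = C.k s n m h τ ∧ p • C.j (s + 1) m x = C.d s n m h τ := by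
  obtain ⟨x', hx'⟩ := Cp.exists_lift h (ρ.fE s n τ) hτ hv r hD
  have h0 : ρ.fD (s + 1) m (C.k s n m h τ) = 0 := by
    rw [← ρ.k_comm, ← hx', Cp.k_j]
  obtain ⟨x, hx⟩ := hρ _ h0
  exact ⟨x, hx, by rw [Couple.d_apply, ← hx, map_zsmul]⟩

end Vale.Agent.P251.B
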