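import Vale.Agent.P251.B.Main
import Vale.Agent.P251.S.MUCobar
import Vale.Agent.P251.S.CobarE1
import Vale.Agent.P251.M.Conn
import Vale.Agent.P251.F.T1Coc

/-!
# P251, part B: the element `β₁`

`D : MUData T`, `U` a cofibre of the unit of `D.R`, `C = S/p`, `p` odd.

* `van_modP` : vanishing line of the `E_2`-term of the tower of `S/p`;
* `torsionFree_W` : `π_{2w}(R ⊗ J^{⊗s})` has no `p`-torsion;
* `exists_beta_one` : there is `x : 𝟙⟦2p(p-1)⟧ ⟶ J ⊗ J` whose image in the `E_1`-term is the image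
  of the cochain `bcls p t` (the class `β₁` up to sign).
-/

open CategoryTheory MonoidalCategory Limits Pretriangulated MonObj

universe v u

namespace Vale.Agent.P251.B

open Vale.Agent.P251.T Vale.Agent.P251.M Vale.Agent.P251.S Vale.Agent.P251.F Vale.Agent.P251.I

variable {T : Type u} [Category.{v} T] [Preadditive T] [HasZeroObject T]
    [HasShift T ℤ] [∀ n : ℤ, (shiftFunctor T n).Additive] [Pretriangulated T]
    [MonoidalCategory T] [SymmetricCategory T] [TensorTriangulated T] [HasCoproducts.{0} T]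

/-- `S^{2w} ≅ 𝟙⟦2w⟧`. -/
noncomputable def sphE (T : Type u) [Category.{v} T] [Preadditive T] [HasZeroObject T]
    [HasShift T ℤ] [∀ n : ℤ, (shiftFunctor T n).Additive] [Pretriangulated T]
    [MonoidalCategory T] [SymmetricCategory T] [TensorTriangulated T] (w : ℤ) :
    (stdEven T).S w ≅ (𝟙_ T)⟦2 * w⟧ :=
  (stdEven T).sphIso (Iso.refl _) w

section red

variable (D : MUData T) (U : UnitCof D.R) {p : ℕ} [Fact p.Prime] (hp : p ≠ 2)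
  {C : T} {i : 𝟙_ T ⟶ C} {δ : C ⟶ (𝟙_ T)⟦(1 : ℤ)⟧}
  (hC : Triangle.mk ((p : ℤ) • 𝟙 (𝟙_ T)) i δ ∈ distTriang T)

include hp hC

/-- Vanishing line for the cobar complex of `S/p`, on `𝟙⟦t⟧`. -/
theorem exact_modP {s : ℕ} {t : ℤ}
    (hw : ∀ w : ℤ, t = 2 * w → ¬ (((p : ℤ) - 1) ∣ w ∧ ((p : ℤ) - 1) * (s + 1) ≤ w))
    (c : (𝟙_ T)⟦t⟧ ⟶ (tensorRight C).obj (U.cobar.Q (s + 2) (𝟙_ T)))
    (hc : c ≫ (tensorRight C).map (U.cobar.d (s + 2) (𝟙_ T)) = 0) :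
    ∃ c' : (𝟙_ T)⟦t⟧ ⟶ (tensorRight C).obj (U.cobar.Q (s + 1) (𝟙_ T)),
      c' ≫ (tensorRight C).map (U.cobar.d (s + 1) (𝟙_ T)) = c := by
  obtain ⟨w, rfl | rfl⟩ := Int.even_or_odd' t
  · have h1 : ((sphE T w).hom ≫ c) ≫ (U.cobar.d (s + 2) (𝟙_ T) ▷ C) = 0 := by
      rw [Category.assoc]
      exact (congrArg _ hc).trans comp_zero
    obtain ⟨g, hg⟩ := D.exists_of_cocycle_red U hp hC s w (hw w rfl) _ h1
    refine ⟨(sphE T w).inv ≫ g, ?_⟩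
    change ((sphE T w).inv ≫ g) ≫ (U.cobar.d (s + 1) (𝟙_ T) ▷ C) = c
    rw [Category.assoc, hg, Iso.inv_hom_id_assoc]
  · refine ⟨0, ?_⟩
    rw [zero_comp]
    exact (D.odd_red U hp hC (s + 1) w c).symm

/-- The vanishing line of the `E_2`-term of the tower of `S/p`. -/
theorem van_modP {s : ℕ} {m t : ℤ} (h : m + ((s + 1 : ℕ) : ℤ) = t)
    (hw : ∀ w : ℤ, t = 2 * w → ¬ (((p : ℤ) - 1) ∣ w ∧ ((p : ℤ) - 1) * (s + 1) ≤ w)) :
    (((U.tow (𝟙_ T)).map (tensorRight C)).couple (𝟙_ T)).Van s m :=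
  U.van_of_exact (𝟙_ T) (tensorRight C) (𝟙_ T) h (exact_modP D U hp hC hw)

/-- The odd homotopy of `R ⊗ J^{⊗s} ⊗ S/p` vanishes. -/
theorem odd_W (s : ℕ) (w : ℤ)
    (g : (𝟙_ T)⟦2 * w + 1⟧ ⟶ (D.R ⊗ U.cobar.B s (𝟙_ T)) ⊗ C) : g = 0 := by
  obtain ⟨c, hc⟩ := U.cobar.q_surjective (F := homF (tensorRight C) (𝟙_ T) (2 * w + 1)) s
    (𝟙_ T) g
  rw [← hc]
  have h : c = 0 := D.odd_red U hp hC s w c
  rw [h]
  exact map_zero _

/-- The even homotopy of `R ⊗ J^{⊗s}` has no `p`-torsion. -/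
theorem torsionFree_W (s : ℕ) (w : ℤ) (f : (𝟙_ T)⟦2 * w⟧ ⟶ D.R ⊗ U.cobar.B s (𝟙_ T))
    (hf : (p : ℤ) • f = 0) : f = 0 :=
  torsionFree_of_red_shift hC (2 * w) (2 * w + 1) rfl (odd_W D U hp hC s w) f hf

omit hp in
omit [Fact p.Prime] [HasCoproducts.{0} T] in
lemma conn_red {n : ℤ} {Y : T} (hY : Conn n Y) : Conn n (Y ⊗ C) :=
  Conn.ext₃ _ (redTri_distinguished hC Y) hY (hY.mono (by omega))

end red

section conn

variable [MonoidalClosed T] (D : MUData T) (U : UnitCof D.R)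

lemma bigCell_B {m : ℤ} {Y : T} (hY : BigCell T m Y) (s : ℕ) :
    BigCell T (m + 2 * s) (U.cobar.B s Y) := by
  induction s generalizing Y m with
  | zero => simpa using hY
  | succ s ih =>
    have h1 : BigCell T (2 + m) (U.J ⊗ Y) := (D.conn U.J U.ρ U.δ U.dist).tensor hY (2 + m) rfl
    have h2 := ih h1
    have e : (2 + m) + 2 * (s : ℤ) = m + 2 * ((s + 1 : ℕ) : ℤ) := by push_cast; ring
    rw [e] at h2
    exact h2

variable [IsTriangulated T] [HasProducts.{0} T] [StableCat T]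

lemma conn_B (s : ℕ) : Conn (2 * (s : ℤ)) (U.cobar.B s (𝟙_ T)) := by
  have h0 : BigCell T 0 (𝟙_ T) :=
    BigCell.of_iso ((shiftFunctorZero T ℤ).app (𝟙_ T)) (BigCell.sphere 0 le_rfl)
  have h1 := bigCell_B D U h0 s
  rw [zero_add] at h1
  exact h1.conn D.conn_unit (fun Y k f => StableCat.compact k Y f)

end conn

section beta

variable [MonoidalClosed T] [IsTriangulated T] [HasProducts.{0} T] [StableCat T]
  (D : MUData T) (U : UnitCof D.R) {p : ℕ} [Fact p.Prime] (hp : p ≠ 2)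

include hp

/-- Division by `p` of a coboundary: if `p b = d c` in weight `w` and the groups of the
vanishing line in stem `2 w - 2` are zero from filtration `3` on, then the image of `b` in the
`E_1`-term comes from a map `𝟙⟦2w⟧ ⟶ J ⊗ J`. -/
theorem exists_of_div (w : ℤ)
    (hw : ∀ a : ℤ, 2 ≤ a → ¬ (((p : ℤ) - 1) ∣ w - 1 + a ∧
      ((p : ℤ) - 1) * (2 * a) ≤ w - 1 + a))
    (c : Cob.wt Laz 1 w) (b : Cob.wt Laz 2 w) (hbc : (p : ℤ) • b = Cob.dwt Laz 1 w c) :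
    ∃ x : (𝟙_ T)⟦2 * w⟧ ⟶ U.cobar.B 2 (𝟙_ T),
      ((sphE T w).inv ≫ D.phi U 2 w b) ≫ U.cobar.q 2 (𝟙_ T) = x ≫ unitMap D.R _ := by
  obtain ⟨C, i, δ, hC⟩ := distinguished_cocone_triangle ((p : ℤ) • 𝟙 (𝟙_ T))
  let X := U.tow (𝟙_ T)
  let θ : (𝟙_ T)⟦2 * w⟧ ⟶ X.W 1 := ((sphE T w).inv ≫ D.phi U 1 w c) ≫ U.cobar.q 1 (𝟙_ T)
  have hθ : θ ≫ X.b 1 ≫ X.a 2 =
      (p : ℤ) • (((sphE T w).inv ≫ D.phi U 2 w b) ≫ U.cobar.q 2 (𝟙_ T)) := by
    change (((sphE T w).inv ≫ D.phi U 1 w c) ≫ U.cobar.q 1 (𝟙_ T)) ≫ U.cobar.D 1 (𝟙_ T) = _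
    rw [Category.assoc, ← U.cobar.d_q 1 (𝟙_ T), Category.assoc, ← Category.assoc (D.phi U 1 w c)]
    have h2 : D.phi U 1 w c ≫ U.cobar.d 2 (𝟙_ T) = (p : ℤ) • D.phi U 2 w b := by
      rw [← D.phi_d U 1 w c, ← hbc, map_zsmul]
    change (sphE T w).inv ≫ (D.phi U 1 w c ≫ U.cobar.d 2 (𝟙_ T)) ≫ U.cobar.q 2 (𝟙_ T) = _
    rw [h2, Preadditive.zsmul_comp, Preadditive.comp_zsmul, Category.assoc]
  let N : ℕ := max 2 (2 * w).toNat
  obtain ⟨x, -, hx⟩ := exists_beta_tower X (redC i) (𝟙_ T) (p : ℤ) (2 * w - 2)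
    (fun t y hy => exists_zsmul_of_red hC y hy)
    (fun s hs => van_modP D U hp hC rfl (fun w' hw' => by
      have h3 : ((s : ℤ) + 1) = 2 * (w' - w + 1) := by
        push_cast at hw'
        linarith
      have h4 := hw (w' - w + 1) (by have : (2 : ℤ) ≤ s := by exact_mod_cast hs
                                     omega)
      rw [h3]
      have h5 : w - 1 + (w' - w + 1) = w' := by ring
      rwa [h5] at h4))
    N (le_max_left _ _)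
    (fun y => conn_red hC (conn_B D U N) _ (by
      have h6 : 2 * w ≤ (N : ℤ) :=
        (Int.self_le_toNat (2 * w)).trans (by exact_mod_cast le_max_right _ _)
      linarith) y)
    (2 * w) (by ring) θ (by
      have h7 : θ ≫ (redC i).app (X.W 1) ≫ (tensorRight C).map (X.b 1 ≫ X.a 2) =
          (θ ≫ X.b 1 ≫ X.a 2) ≫ (redC i).app (X.W 2) := by
        rw [← (redC i).naturality (X.b 1 ≫ X.a 2)]
        simp only [Category.assoc, Functor.id_map]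
      rw [h7, hθ]
      exact zsmul_comp_red hC _)
  refine ⟨x, ?_⟩
  have hx' : (p : ℤ) • (x ≫ unitMap D.R (U.cobar.B 2 (𝟙_ T))) =
      (p : ℤ) • (((sphE T w).inv ≫ D.phi U 2 w b) ≫ U.cobar.q 2 (𝟙_ T)) := hx.trans hθ
  have h8 := torsionFree_W D U hp hC 2 w (x ≫ unitMap D.R (U.cobar.B 2 (𝟙_ T)) -
    ((sphE T w).inv ≫ D.phi U 2 w b) ≫ U.cobar.q 2 (𝟙_ T)) (by rw [zsmul_sub, hx', sub_self])
  exact (sub_eq_zero.1 h8).symm

omit hp [Fact p.Prime] [HasCoproducts.{0} T] [MonoidalClosed T] [IsTriangulated T]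
  [HasProducts.{0} T] [StableCat T] in
/-- The vanishing line in the stem of `β₁`. -/
lemma beta_numeric {p : ℕ} (hp3 : 3 ≤ p) (a : ℤ) (ha : 2 ≤ a) :
    ¬ (((p : ℤ) - 1) ∣ (p : ℤ) * ((p : ℤ) - 1) - 1 + a ∧
      ((p : ℤ) - 1) * (2 * a) ≤ (p : ℤ) * ((p : ℤ) - 1) - 1 + a) := by
  rintro ⟨⟨k, hk⟩, h2⟩
  have hp' : (3 : ℤ) ≤ p := by exact_mod_cast hp3
  have h3 : a - 1 = ((p : ℤ) - 1) * (k - p) := by linarith
  have h4 : 1 ≤ k - p := by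
    by_contra h
    have : k - p ≤ 0 := by omega
    nlinarith
  obtain ⟨b, hb⟩ : ∃ b, b = k - p := ⟨_, rfl⟩
  obtain ⟨P, hP⟩ : ∃ P : ℤ, P = p := ⟨_, rfl⟩
  rw [← hb] at h3 h4
  rw [← hP] at h2 h3 hp'
  have ha' : a = 1 + (P - 1) * b := by linarith
  subst ha'
  have h5 : (P - 1) * (2 + 2 * (P - 1) * b - P - b) ≤ 0 := by nlinarith
  have h6 : 2 + 2 * (P - 1) * b - P - b ≤ 0 := by
    by_contra h
    have : 0 < (P - 1) * (2 + 2 * (P - 1) * b - P - b) :=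
      mul_pos (by linarith) (by linarith)
    linarith
  nlinarith [mul_nonneg (show (0 : ℤ) ≤ 2 * P - 3 by linarith)
    (show (0 : ℤ) ≤ b - 1 by linarith)]

/-- The class `β₁` (up to sign): a map `𝟙⟦2p(p-1)⟧ ⟶ J ⊗ J` with image `bcls p t`. -/
theorem exists_beta_one {t : Cob Laz 1} (ht : IsT1 p t)
    {w : ℤ} (hw : w = (p * (p - 1) : ℕ)) (hb : Cob.IsWt w (bcls p t)) :
    ∃ x : (𝟙_ T)⟦2 * w⟧ ⟶ U.cobar.B 2 (𝟙_ T),
      ((sphE T w).inv ≫ D.phi U 2 w ⟨bcls p t, hb⟩) ≫ U.cobar.q 2 (𝟙_ T) =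
        x ≫ unitMap D.R _ := by
  obtain ⟨ht1, -, -, -, h5⟩ := BCocycle p hp t ht
  have hp3 : 3 ≤ p := by
    have h1 := (Fact.out : p.Prime).two_le
    omega
  have hw' : w = (p : ℤ) * ((p : ℤ) - 1) := by
    rw [hw, Nat.cast_mul, Nat.cast_sub (by omega), Nat.cast_one]
  have hc : Cob.IsWt w (-(t ^ p)) := by
    have h1 := (ht1.pow p).neg
    rwa [show ((p : ℕ) : ℤ) * ((p - 1 : ℕ) : ℤ) = w by rw [hw]; push_cast; ring] at h1
  refine exists_of_div D U hp w ?_ ⟨_, hc⟩ ⟨_, hb⟩ ?_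
  · intro a ha
    rw [hw']
    exact beta_numeric hp3 a ha
  · apply Subtype.ext
    change (p : ℤ) • bcls p t = Cob.d 1 (-(t ^ p))
    rw [h5, map_neg]

omit hp [Fact p.Prime] [MonoidalClosed T] [IsTriangulated T] [HasProducts.{0} T]
  [StableCat T] in
/-- `phi` of a cocycle is a cocycle. -/
lemma phi_cocycle {s : ℕ} {w : ℤ} {b : Cob Laz s} (hb : Cob.IsWt w b) (hd : Cob.d s b = 0)
    {k : ℤ} (e : (𝟙_ T)⟦k⟧ ⟶ (stdEven T).S w) :
    (e ≫ D.phi U s w ⟨b, hb⟩) ≫ U.cobar.d (s + 1) (𝟙_ T) = 0 := by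
  have h : Cob.dwt Laz s w ⟨b, hb⟩ = 0 := Subtype.ext hd
  rw [Category.assoc, ← D.phi_d U s w, h, map_zero, comp_zero]

omit hp [Fact p.Prime] in
/-- The class `β₁` at the prime `5`: with `e : 𝟙⟦40⟧ ≅ S^{40}`, there is `x : 𝟙⟦40⟧ ⟶ J ⊗ J` whose
image in the `E_1`-term is the image of the cocycle `z = e ≫ phi (bcls 5 t)`. -/
theorem exists_beta_five : ∃ (t : Cob Laz 1) (_ : IsT1 5 t) (hb : Cob.IsWt 20 (bcls 5 t))
    (x : (𝟙_ T)⟦(40 : ℤ)⟧ ⟶ U.cobar.B 2 (𝟙_ T)),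
      (((sphE T 20).inv : (𝟙_ T)⟦(40 : ℤ)⟧ ⟶ (stdEven T).S 20) ≫
        D.phi U 2 20 ⟨bcls 5 t, hb⟩) ≫ U.cobar.d 3 (𝟙_ T) = 0 ∧
      (((sphE T 20).inv : (𝟙_ T)⟦(40 : ℤ)⟧ ⟶ (stdEven T).S 20) ≫
        D.phi U 2 20 ⟨bcls 5 t, hb⟩) ≫ U.cobar.q 2 (𝟙_ T) = x ≫ unitMap D.R _ := by
  have : Fact (Nat.Prime 5) := ⟨by norm_num⟩
  obtain ⟨t, ht⟩ := T1 5
  obtain ⟨-, -, h3, h4, -⟩ := BCocycle 5 (by norm_num) t ht
  have hb : Cob.IsWt 20 (bcls 5 t) := h3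
  obtain ⟨x, hx⟩ := exists_beta_one D U (p := 5) (by norm_num) ht (w := 20) (by norm_num) hb
  exact ⟨t, ht, hb, x, phi_cocycle D U hb h4 _, hx⟩

end beta

end Vale.Agent.P251.B
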