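import Vale.Agent.P251.B.Beta
import Vale.Agent.P251.S.TowerCouple

/-!
# P251, part B: the element `β₁` in a tower of triangles

`X` is the tower `J^{⊗s}` of `T`, `F` the functor `- ⊗ S/p` with its natural transformation
`τ : 𝟭 ⟶ F`.  `θ : P⟦t+2⟧ ⟶ W 1` (the class of `t₁^p`, `t = 38`) is a cocycle modulo `p`.
If the `E_2`-term of `F X` vanishes in stem `t` from filtration `3` on and `F X` is connected
enough, then `θ ≫ b 1 = p x` for some `x : P⟦t+2⟧ ⟶ J 2`, and `p (x ≫ a 2)` is the boundary of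
`θ`.
-/

open CategoryTheory Limits Pretriangulated

universe v u

namespace Vale.Agent.P251.B

open Vale.Agent.P251.S

variable {T : Type u} [Category.{v} T] [Preadditive T] [HasZeroObject T] [HasShift T ℤ]
  [∀ n : ℤ, (shiftFunctor T n).Additive] [Pretriangulated T]

/-- A natural transformation `𝟭 ⟶ F` commuting with the shifts induces a morphism of towers. -/
def mapUnit (X : Tow T) {F : T ⥤ T} [F.CommShift ℤ] [F.IsTriangulated] (τ : 𝟭 T ⟶ F)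
    [NatTrans.CommShift τ ℤ] : Tow.Mor X (X.map F) where
  f s := τ.app (X.J s)
  g s := τ.app (X.W s)
  comm_a s := τ.naturality _
  comm_b s := τ.naturality _
  comm_c s := by
    change X.c s ≫ (τ.app (X.J s))⟦(1 : ℤ)⟧' =
      τ.app (X.J (s + 1)) ≫ F.map (X.c s) ≫ (F.commShiftIso (1 : ℤ)).hom.app (X.J s)
    rw [← τ.naturality_assoc]
    have h := NatTrans.shift_app_comm τ (1 : ℤ) (X.J s)
    rw [Functor.commShiftIso_id_hom_app] at h
    exact congrArg (fun z => X.c s ≫ z) ((Category.id_comp _).symm.trans h)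

/-- Existence of `β₁`. -/
theorem exists_beta_tower (X : Tow T) {F : T ⥤ T} [F.CommShift ℤ] [F.IsTriangulated]
    (τ : 𝟭 T ⟶ F) [NatTrans.CommShift τ ℤ] (P : T) (p : ℤ) (m : ℤ)
    (hker : ∀ (t : ℤ) (y : P⟦t⟧ ⟶ X.J 2), y ≫ τ.app (X.J 2) = 0 → ∃ w, p • w = y)
    (hv : ∀ s ≥ 2, ((X.map F).couple P).Van s m)
    (N : ℕ) (hN : 2 ≤ N) (hconn : ∀ y : P⟦m + (N : ℤ)⟧ ⟶ F.obj (X.J N), y = 0)
    (t : ℤ) (ht : t = m + 2) (θ : P⟦t⟧ ⟶ X.W 1)
    (hθ : θ ≫ τ.app (X.W 1) ≫ F.map (X.b 1 ≫ X.a 2) = 0) :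
    ∃ x : P⟦t⟧ ⟶ X.J 2, p • x = θ ≫ X.b 1 ∧ p • (x ≫ X.a 2) = θ ≫ X.b 1 ≫ X.a 2 := by
  suffices h : ∃ x : P⟦t⟧ ⟶ X.J 2, p • x = θ ≫ X.b 1 by
    obtain ⟨x, hx⟩ := h
    exact ⟨x, hx, by rw [← Preadditive.zsmul_comp, hx, Category.assoc]⟩
  let φ := mapUnit X τ
  let ρ : Red (X.couple P) ((X.map F).couple P) :=
    { fD := φ.fD P
      fE := φ.fE P
      i_comm := φ.i_fD P
      j_comm := φ.j_fD P
      k_comm := φ.k_fE P }
  have h1 : (m + 1) + ((1 : ℕ) : ℤ) = t := by rw [ht]; push_cast; ring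
  have h2 : m + ((1 + 1 : ℕ) : ℤ) = t := by rw [ht]; push_cast; ring
  -- the class in the couple
  let τ' : (X.couple P).E 1 (m + 1) := (X.eE P h1).symm θ
  have hcoc : ((X.map F).couple P).IsCocycle (ρ.fE 1 (m + 1) τ') := by
    intro m' hm'
    obtain rfl : m' = m := by linarith
    apply ((X.map F).eE P h2).injective
    rw [(X.map F).eE_d P hm' h1 h2, map_zero]
    change (X.map F).eE P h1 (φ.fE P 1 _ τ') ≫ _ = 0
    rw [φ.eE_fE P h1]
    change (X.eE P h1 ((X.eE P h1).symm θ) ≫ τ.app (X.W 1)) ≫ F.map (X.b 1) ≫ F.map (X.a 2) = 0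
    rw [AddEquiv.apply_symm_apply, ← F.map_comp, Category.assoc, hθ]
  obtain ⟨r, rfl⟩ : ∃ r, N = 1 + 1 + r := ⟨N - 2, by omega⟩
  obtain ⟨x, hx, -⟩ := exists_beta ρ p rfl τ' hcoc hv r
    (fun y => hconn y)
    (fun y hy => by
      obtain ⟨w, hw⟩ := hker (m + ((1 + 1 : ℕ) : ℤ)) y hy
      exact ⟨w, hw⟩)
  refine ⟨X.eD P h2 x, ?_⟩
  have := congrArg (X.eD P h2) hx
  rw [map_zsmul, X.eD_k P rfl h1 h2, AddEquiv.apply_symm_apply] at this
  exact this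

end Vale.Agent.P251.B
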